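import Crest.Prelude.Def_SelfSimilar

/-!
Row 98 (S0129): upper bound, part A. Words, weights, Chebyshev inequality for words.
(helper430)
-/

set_option autoImplicit false

namespace Crest.Agent.R098.Upper

open Finset

variable {κ : Type*} [Fintype κ]

/-- weight of a word -/
def pw (p : κ → ℝ) {k : ℕ} (w : Fin k → κ) : ℝ := ∏ j, p (w j)

/-- additive functional of a word -/
def sw (Y : κ → ℝ) {k : ℕ} (w : Fin k → κ) : ℝ := ∑ j, Y (w j)

omit [Fintype κ] in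
lemma pw_nonneg {p : κ → ℝ} (hp : ∀ i, 0 ≤ p i) {k : ℕ} (w : Fin k → κ) : 0 ≤ pw p w :=
  Finset.prod_nonneg fun _ _ => hp _

lemma sum_succ {k : ℕ} (F : (Fin (k+1) → κ) → ℝ) :
    ∑ w, F w = ∑ a : κ, ∑ w : Fin k → κ, F (Fin.cons a w) := by
  rw [← Fintype.sum_prod_type']
  exact (Fintype.sum_equiv (Fin.consEquiv fun _ => κ) _ _ (fun x => rfl)).symm

omit [Fintype κ] in
lemma pw_cons (p : κ → ℝ) {k : ℕ} (a : κ) (w : Fin k → κ) :
    pw p (Fin.cons a w : Fin (k+1) → κ) = p a * pw p w := by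
  simp [pw, Fin.prod_univ_succ]

omit [Fintype κ] in
lemma sw_cons (Y : κ → ℝ) {k : ℕ} (a : κ) (w : Fin k → κ) :
    sw Y (Fin.cons a w : Fin (k+1) → κ) = Y a + sw Y w := by
  simp [sw, Fin.sum_univ_succ]

lemma sum_pw {p : κ → ℝ} (hp1 : ∑ i, p i = 1) (k : ℕ) : ∑ w : Fin k → κ, pw p w = 1 := by
  induction k with
  | zero => simp [pw]
  | succ k ih =>
    rw [sum_succ]
    simp_rw [pw_cons, ← Finset.mul_sum, ih, mul_one, hp1]

lemma sum_pw_sw {p : κ → ℝ} (hp1 : ∑ i, p i = 1) {Y : κ → ℝ} (hY : ∑ i, p i * Y i = 0)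
    (k : ℕ) : ∑ w : Fin k → κ, pw p w * sw Y w = 0 := by
  induction k with
  | zero => simp [sw]
  | succ k ih =>
    rw [sum_succ]
    have : ∀ a : κ, ∑ w : Fin k → κ, pw p (Fin.cons a w : Fin (k+1) → κ) *
        sw Y (Fin.cons a w : Fin (k+1) → κ) = p a * Y a := by
      intro a
      simp_rw [pw_cons, sw_cons]
      have h1 : ∀ w : Fin k → κ, p a * pw p w * (Y a + sw Y w)
          = p a * Y a * pw p w + p a * (pw p w * sw Y w) := by intro w; ring
      simp_rw [h1, Finset.sum_add_distrib, ← Finset.mul_sum, ih, sum_pw hp1]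
      ring
    simp_rw [this, hY]

lemma sum_pw_sw_sq {p : κ → ℝ} (hp1 : ∑ i, p i = 1) {Y : κ → ℝ} (hY : ∑ i, p i * Y i = 0)
    (k : ℕ) : ∑ w : Fin k → κ, pw p w * (sw Y w) ^ 2 = k * ∑ i, p i * (Y i) ^ 2 := by
  induction k with
  | zero => simp [sw]
  | succ k ih =>
    rw [sum_succ]
    have : ∀ a : κ, ∑ w : Fin k → κ, pw p (Fin.cons a w : Fin (k+1) → κ) *
        (sw Y (Fin.cons a w : Fin (k+1) → κ)) ^ 2
          = p a * (Y a) ^ 2 + p a * (k * ∑ i, p i * (Y i) ^ 2) := by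
      intro a
      simp_rw [pw_cons, sw_cons]
      have h1 : ∀ w : Fin k → κ, p a * pw p w * (Y a + sw Y w) ^ 2
          = p a * (Y a) ^ 2 * pw p w + 2 * p a * Y a * (pw p w * sw Y w)
            + p a * (pw p w * (sw Y w) ^ 2) := by intro w; ring
      simp_rw [h1, Finset.sum_add_distrib, ← Finset.mul_sum, ih, sum_pw hp1, sum_pw_sw hp1 hY]
      ring
    simp_rw [this, Finset.sum_add_distrib, ← Finset.sum_mul, hp1]
    push_cast; ring

/-- Chebyshev for words -/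
lemma chebyshev {p : κ → ℝ} (hp : ∀ i, 0 ≤ p i) (hp1 : ∑ i, p i = 1) {Y : κ → ℝ}
    (hY : ∑ i, p i * Y i = 0) (k : ℕ) (hk : 0 < k) {δ : ℝ} (hδ : 0 < δ) :
    ∑ w ∈ (univ.filter fun w : Fin k → κ => k * δ ≤ |sw Y w|), pw p w
      ≤ (∑ i, p i * (Y i) ^ 2) / (k * δ ^ 2) := by
  have hk' : (0:ℝ) < k := by exact_mod_cast hk
  rw [le_div_iff₀ (by positivity)]
  have h1 := sum_pw_sw_sq hp1 hY k
  have h2 : ∑ w ∈ (univ.filter fun w : Fin k → κ => k * δ ≤ |sw Y w|), pw p w * (k * δ) ^ 2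
      ≤ ∑ w : Fin k → κ, pw p w * (sw Y w) ^ 2 := by
    refine (Finset.sum_le_sum (f := fun w => pw p w * (k * δ) ^ 2)
      (g := fun w => pw p w * (sw Y w) ^ 2) ?_).trans
      (Finset.sum_le_sum_of_subset_of_nonneg (Finset.filter_subset _ _)
        (fun w _ _ => mul_nonneg (pw_nonneg hp w) (sq_nonneg _)))
    intro w hw
    have hw' := (Finset.mem_filter.mp hw).2
    refine mul_le_mul_of_nonneg_left ?_ (pw_nonneg hp w)
    rw [← sq_abs (sw Y w)]
    exact pow_le_pow_left₀ (by positivity) hw' 2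
  rw [← Finset.sum_mul, h1] at h2
  have h3 : (∑ w ∈ (univ.filter fun w : Fin k → κ => k * δ ≤ |sw Y w|), pw p w) * (k * δ ^ 2) * k
      ≤ (∑ i, p i * (Y i) ^ 2) * k := by
    calc _ = (∑ w ∈ (univ.filter fun w : Fin k → κ => k * δ ≤ |sw Y w|), pw p w) * (k * δ) ^ 2 := by
            ring
      _ ≤ _ := by rw [mul_comm (∑ i, p i * (Y i) ^ 2)]; exact h2
  exact le_of_mul_le_mul_right h3 hk'





omit [Fintype κ] in
lemma pw_eq_exp {p : κ → ℝ} (hp : ∀ i, 0 < p i) {k : ℕ} (w : Fin k → κ) :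
    pw p w = Real.exp (- sw (fun i => - Real.log (p i)) w) := by
  simp only [pw, sw, Finset.sum_neg_distrib, neg_neg]
  rw [Real.exp_sum]
  exact Finset.prod_congr rfl fun j _ => (Real.exp_log (hp _)).symm


end Crest.Agent.R098.Upper
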